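import Mathlib
import Vale.Agent.P092.L.H553.Defs
import Vale.Agent.P092.L.H132.T1

/-!
P092 (helper732), block Q of helper553's plan: the function `q1` and its asymptotic invariance.
-/

namespace Vale.Agent.P092.L.H732

open Vale.Agent.P092.L.H553
open Vale.Agent.P092.H553 (hs)
variable {G3 : Type} [Group G3] [Emb G3]

open Vale.Agent.P092.L.H553 Vale.Agent.P092.L.H132 Matrix Filter Topology

abbrev M3 : Type := Matrix (Fin 3) (Fin 3) ℝ

/-- `q₁(g) = log G23(g) / log (A(g) B(g))`. -/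
noncomputable def q1 (g : G3) : ℝ := Real.log (G23 g) / (Real.log (rA g) + Real.log (rB g))

/-- The denominator of `q1`. -/
noncomputable def dn (g : G3) : ℝ := Real.log (rA g) + Real.log (rB g)

lemma three_le_rA (g : G3) : 3 ≤ rA g := by
  have h1 := three_rB_le g
  have h2 := three_rB_le g⁻¹
  rw [rB_inv, rA_inv] at h2
  have hA := rA_pos g
  have hB := rB_pos g
  by_contra hlt
  push Not at hlt
  have h3 : rB g < rA g := by nlinarith
  nlinarith

lemma three_le_rB (g : G3) : 3 ≤ rB g := three_le_rA g⁻¹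

lemma one_lt_log_rA (g : G3) : 1 < Real.log (rA g) := by
  have h3 : Real.exp 1 < 3 := by
    have := Real.exp_one_lt_d9
    linarith
  have : Real.exp 1 < rA g := lt_of_lt_of_le h3 (three_le_rA g)
  rw [← Real.log_exp 1]
  exact Real.log_lt_log (Real.exp_pos 1) this

lemma one_lt_log_rB (g : G3) : 1 < Real.log (rB g) := one_lt_log_rA g⁻¹

lemma dn_pos (g : G3) : 0 < dn g := by
  have h1 := one_lt_log_rA g
  have h2 := one_lt_log_rB g
  rw [dn]; linarith

lemma log_G23 (g : G3) : Real.log (G23 g) = 2 * Real.log (rB g) - Real.log (rA g) := by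
  rw [G23, Real.log_div (pow_ne_zero 2 (rB_pos g).ne') (rA_pos g).ne', Real.log_pow]
  push_cast
  ring

lemma log_G12 (g : G3) : Real.log (G12 g) = 2 * Real.log (rA g) - Real.log (rB g) := by
  rw [G12, Real.log_div (pow_ne_zero 2 (rA_pos g).ne') (rB_pos g).ne', Real.log_pow]
  push_cast
  ring

lemma q1_nonneg (g : G3) : 0 ≤ q1 g := by
  refine div_nonneg (Real.log_nonneg ?_) (dn_pos g).le
  linarith [G23_ge g]

lemma q1_inv (g : G3) : q1 g⁻¹ = 1 - q1 g := by
  have hd := dn_pos g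
  rw [dn] at hd
  rw [q1, q1, log_G23, log_G23, rB_inv, rA_inv, eq_sub_iff_add_eq,
    add_comm (Real.log (rB g)) (Real.log (rA g)), ← add_div, div_eq_one_iff_eq hd.ne']
  ring

lemma q1_le_one (g : G3) : q1 g ≤ 1 := by
  have h := q1_nonneg g⁻¹
  rw [q1_inv] at h
  linarith

lemma tendsto_rA : Tendsto (fun g : G3 => rA g) cofinite atTop := by
  rw [tendsto_atTop]
  intro b
  have h : {g : G3 | rA g ≤ b}ᶜ ∈ cofinite := (finite_rA_le b).compl_mem_cofinite
  filter_upwards [h] with g hg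
  exact (not_le.mp (fun hle => hg hle)).le

lemma tendsto_log_rA : Tendsto (fun g : G3 => Real.log (rA g)) cofinite atTop :=
  Real.tendsto_log_atTop.comp tendsto_rA

lemma tendsto_dn : Tendsto (dn : G3 → ℝ) cofinite atTop := by
  refine tendsto_atTop_mono (fun g => ?_) tendsto_log_rA
  rw [dn]; linarith [one_lt_log_rB g]

lemma log_rA_mul_le (g h : G3) : Real.log (rA (g * h)) ≤ Real.log (rA g) + Real.log (rA h) := by
  rw [← Real.log_mul (rA_pos g).ne' (rA_pos h).ne']
  exact Real.log_le_log (rA_pos _) (rA_mul_le g h)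

/-- `|log A(s g t) - log A(g)|` is bounded. -/
lemma log_rA_two (s t g : G3) :
    |Real.log (rA (s * g * t)) - Real.log (rA g)| ≤ dn s + dn t := by
  have h1 := log_rA_mul_le (s * g) t
  have h2 := log_rA_mul_le s g
  have h3 := log_rA_mul_le (s⁻¹ * (s * g * t)) t⁻¹
  have h4 := log_rA_mul_le s⁻¹ (s * g * t)
  have e : s⁻¹ * (s * g * t) * t⁻¹ = g := by group
  rw [e] at h3
  rw [rA_inv] at h3 h4
  have p1 := one_lt_log_rA s
  have p2 := one_lt_log_rB s
  have p3 := one_lt_log_rA t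
  have p4 := one_lt_log_rB t
  rw [dn, dn, abs_le]
  constructor <;> linarith

lemma log_rB_two (s t g : G3) :
    |Real.log (rB (s * g * t)) - Real.log (rB g)| ≤ dn s + dn t := by
  have h := log_rA_two t⁻¹ s⁻¹ g⁻¹
  have e : t⁻¹ * g⁻¹ * s⁻¹ = (s * g * t)⁻¹ := by group
  rw [e, rA_inv, rA_inv] at h
  have e2 : dn t⁻¹ = dn t := by rw [dn, dn, rA_inv, rB_inv, add_comm]
  have e3 : dn s⁻¹ = dn s := by rw [dn, dn, rA_inv, rB_inv, add_comm]
  rw [e2, e3] at h
  linarith

lemma q1_diff_le (s t g : G3) :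
    |q1 (s * g * t) - q1 g| ≤ 5 * (dn s + dn t) / dn (s * g * t) := by
  have hA := log_rA_two s t g
  have hB := log_rB_two s t g
  have hd := dn_pos g
  have hd' := dn_pos (s * g * t)
  have q0 := q1_nonneg g
  have q2 := q1_le_one g
  set C := dn s + dn t with hC
  set a := Real.log (rA g) with ha
  set b := Real.log (rB g) with hb
  set a' := Real.log (rA (s * g * t)) with ha'
  set b' := Real.log (rB (s * g * t)) with hb'
  have e1 : q1 g = (2 * b - a) / dn g := by rw [q1, log_G23]; rfl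
  have e2 : q1 (s * g * t) = (2 * b' - a') / dn (s * g * t) := by rw [q1, log_G23]; rfl
  have e3 : q1 (s * g * t) - q1 g =
      ((2 * b' - a' - (2 * b - a)) + q1 g * (dn g - dn (s * g * t))) / dn (s * g * t) := by
    rw [eq_div_iff hd'.ne', sub_mul, e2, div_mul_cancel₀ _ hd'.ne']
    have : q1 g * dn g = 2 * b - a := by rw [e1, div_mul_cancel₀ _ hd.ne']
    linarith [mul_sub (q1 g) (dn g) (dn (s * g * t))]
  rw [e3, abs_div, abs_of_pos hd']
  refine div_le_div_of_nonneg_right ?_ hd'.le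
  have h1 : |dn g - dn (s * g * t)| ≤ 2 * C := by
    have : dn g - dn (s * g * t) = -(a' - a) - (b' - b) := by rw [dn, dn]; ring
    rw [this]
    calc |-(a' - a) - (b' - b)| ≤ |-(a' - a)| + |b' - b| := abs_sub _ _
      _ ≤ 2 * C := by rw [abs_neg]; linarith
  have h2 : |2 * b' - a' - (2 * b - a)| ≤ 3 * C := by
    have : 2 * b' - a' - (2 * b - a) = 2 * (b' - b) - (a' - a) := by ring
    rw [this]
    calc |2 * (b' - b) - (a' - a)| ≤ |2 * (b' - b)| + |a' - a| := abs_sub _ _
      _ ≤ 3 * C := by rw [abs_mul, abs_two]; linarith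
  calc |2 * b' - a' - (2 * b - a) + q1 g * (dn g - dn (s * g * t))|
      ≤ |2 * b' - a' - (2 * b - a)| + |q1 g * (dn g - dn (s * g * t))| := abs_add_le _ _
    _ ≤ 3 * C + 1 * (2 * C) := by
        refine add_le_add h2 ?_
        rw [abs_mul, abs_of_nonneg q0]
        exact mul_le_mul q2 h1 (abs_nonneg _) zero_le_one
    _ = 5 * C := by ring

lemma tendsto_cofinite_mul (s t : G3) : Tendsto (fun g : G3 => s * g * t) cofinite cofinite := by
  refine Function.Injective.tendsto_cofinite ?_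
  intro g h hgh
  simpa using hgh

theorem q1_tendsto (s t : G3) : Tendsto (fun g => q1 (s * g * t) - q1 g) cofinite (𝓝 0) := by
  refine squeeze_zero_norm (a := fun g => 5 * (dn s + dn t) / dn (s * g * t)) ?_ ?_
  · intro g
    rw [Real.norm_eq_abs]
    exact q1_diff_le s t g
  · exact (tendsto_const_nhds (x := 5 * (dn s + dn t))).div_atTop
      (tendsto_dn.comp (tendsto_cofinite_mul s t))

/-- Sum of the squares of the `2 × 2` minors of the rows of `K` and `L`. -/
lemma lagrange (K L : M3) :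
    hs K * hs L - hs (K * Lᵀ) =
      ∑ i, ∑ j, ((K i 1 * L j 2 - K i 2 * L j 1) ^ 2 + (K i 2 * L j 0 - K i 0 * L j 2) ^ 2
        + (K i 0 * L j 1 - K i 1 * L j 0) ^ 2) := by
  simp only [hs, Matrix.mul_apply, Matrix.transpose_apply, Fin.sum_univ_three]
  ring

lemma minors_adj (K : M3) :
    ∑ i, ∑ j, ((K i 1 * K j 2 - K i 2 * K j 1) ^ 2 + (K i 2 * K j 0 - K i 0 * K j 2) ^ 2
        + (K i 0 * K j 1 - K i 1 * K j 0) ^ 2) = 2 * hs K.adjugate := by
  rw [Matrix.adjugate_fin_three]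
  simp only [hs, Fin.sum_univ_three, Matrix.of_apply, Matrix.cons_val', Matrix.cons_val_zero,
    Matrix.cons_val_one, Matrix.cons_val_two, Matrix.head_cons, Matrix.tail_cons,
    Matrix.cons_val_fin_one, Matrix.empty_val', Matrix.head_fin_const]
  ring

lemma cross_le (T K : M3) :
    hs K * hs (T * K) - hs (K * (T * K)ᵀ) ≤ 2 * hs T * hs K.adjugate := by
  rw [lagrange, mul_assoc 2, mul_comm (hs T), ← mul_assoc, ← minors_adj]
  have key : ∀ i j, ((K i 1 * (T * K) j 2 - K i 2 * (T * K) j 1) ^ 2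
      + (K i 2 * (T * K) j 0 - K i 0 * (T * K) j 2) ^ 2
        + (K i 0 * (T * K) j 1 - K i 1 * (T * K) j 0) ^ 2) ≤
      (∑ m, ((K i 1 * K m 2 - K i 2 * K m 1) ^ 2 + (K i 2 * K m 0 - K i 0 * K m 2) ^ 2
        + (K i 0 * K m 1 - K i 1 * K m 0) ^ 2)) * (∑ m, T j m ^ 2) := by
    intro i j
    have e1 : K i 1 * (T * K) j 2 - K i 2 * (T * K) j 1
        = ∑ m, (K i 1 * K m 2 - K i 2 * K m 1) * T j m := by
      simp only [Matrix.mul_apply, Fin.sum_univ_three]; ring
    have e2 : K i 2 * (T * K) j 0 - K i 0 * (T * K) j 2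
        = ∑ m, (K i 2 * K m 0 - K i 0 * K m 2) * T j m := by
      simp only [Matrix.mul_apply, Fin.sum_univ_three]; ring
    have e3 : K i 0 * (T * K) j 1 - K i 1 * (T * K) j 0
        = ∑ m, (K i 0 * K m 1 - K i 1 * K m 0) * T j m := by
      simp only [Matrix.mul_apply, Fin.sum_univ_three]; ring
    rw [e1, e2, e3, Finset.sum_add_distrib, Finset.sum_add_distrib, add_mul, add_mul]
    exact add_le_add (add_le_add (Finset.sum_mul_sq_le_sq_mul_sq _ _ _)
      (Finset.sum_mul_sq_le_sq_mul_sq _ _ _)) (Finset.sum_mul_sq_le_sq_mul_sq _ _ _)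
  calc _ ≤ ∑ i, ∑ j, (∑ m, ((K i 1 * K m 2 - K i 2 * K m 1) ^ 2
          + (K i 2 * K m 0 - K i 0 * K m 2) ^ 2
          + (K i 0 * K m 1 - K i 1 * K m 0) ^ 2)) * (∑ m, T j m ^ 2) :=
        Finset.sum_le_sum fun i _ => Finset.sum_le_sum fun j _ => key i j
    _ = _ := by
        simp only [hs]
        rw [Finset.sum_mul]
        exact Finset.sum_congr rfl fun i _ => (Finset.mul_sum _ _ _).symm

/-- `‖N*(g t) - N*(g)‖² ≤ 4 A(t) B(t) / G23(g)`. -/
theorem hs_NS_right (g t : G3) : hs (NS (g * t) - NS g) ≤ 4 * (rA t * rB t) / G23 g := by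
  have hBg := rB_pos g
  have hBgt := rB_pos (g * t)
  have hAt := rA_pos t
  have hBt := rB_pos t
  have hAg := rA_pos g
  set K := rm g⁻¹ with hK
  set T := rm t⁻¹ with hT
  have e1 : rm (g * t)⁻¹ = T * K := by rw [_root_.mul_inv_rev, rm_mul]
  have c := cross_le T K
  have e2 : hs K.adjugate = rA g := by
    rw [hK, ← rm_inv, inv_inv]; rfl
  have e3 : hs T = rB t := rfl
  have e4 : hs K = rB g := rfl
  have e5 : hs (T * K) = rB (g * t) := by rw [← e1]; rfl
  rw [e2, e3, e4, e5] at c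
  have ip : ∑ j, ∑ k, NS (g * t) j k * NS g j k = hs (K * (T * K)ᵀ) / (rB g * rB (g * t)) := by
    have h := ip_gram (T * K) K
    have h2 : hs (T * K * Kᵀ) = hs (K * (T * K)ᵀ) := by
      rw [← hs_transpose (K * (T * K)ᵀ), Matrix.transpose_mul, Matrix.transpose_transpose]
    rw [h2] at h
    rw [← h, div_eq_inv_mul, Finset.mul_sum]
    refine Finset.sum_congr rfl fun i _ => ?_
    rw [Finset.mul_sum]
    refine Finset.sum_congr rfl fun j _ => ?_
    simp only [NS, Matrix.smul_apply, smul_eq_mul, e1, ← hK]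
    rw [mul_inv]
    ring
  have h1 : hs (NS (g * t) - NS g) ≤ 2 - 2 * (hs (K * (T * K)ᵀ) / (rB g * rB (g * t))) := by
    rw [hs_sub, ip]
    linarith [hs_NS_le (g * t), hs_NS_le g]
  have h2 : 2 - 2 * (hs (K * (T * K)ᵀ) / (rB g * rB (g * t)))
      = 2 * (rB g * rB (g * t) - hs (K * (T * K)ᵀ)) / (rB g * rB (g * t)) := by
    field_simp
  have h3 : rB g ≤ rA t * rB (g * t) := by
    have := rA_mul_le t (g * t)⁻¹
    rwa [show t * (g * t)⁻¹ = g⁻¹ by group, rA_inv, rA_inv] at this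
  rw [h2] at h1
  refine h1.trans ?_
  rw [div_le_div_iff₀ (by positivity) (by rw [G23]; positivity), G23]
  calc 2 * (rB g * rB (g * t) - hs (K * (T * K)ᵀ)) * (rB g ^ 2 / rA g)
      ≤ 2 * (2 * rB t * rA g) * (rB g ^ 2 / rA g) :=
        mul_le_mul_of_nonneg_right (by linarith) (by positivity)
    _ = 4 * rB t * rB g * rB g := by field_simp; ring
    _ ≤ 4 * rB t * rB g * (rA t * rB (g * t)) := mul_le_mul_of_nonneg_left h3 (by positivity)
    _ = _ := by ring

lemma sq_entry_le (m : M3) (i j : Fin 3) : m i j ^ 2 ≤ hs m := by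
  have h2 : m i j ^ 2 ≤ ∑ j, m i j ^ 2 :=
    Finset.single_le_sum (f := fun j => m i j ^ 2) (fun _ _ => sq_nonneg _) (Finset.mem_univ j)
  have h3 : ∑ j, m i j ^ 2 ≤ hs m :=
    Finset.single_le_sum (f := fun i => ∑ j, m i j ^ 2)
      (fun _ _ => Finset.sum_nonneg fun _ _ => sq_nonneg _) (Finset.mem_univ i)
  exact h2.trans h3

lemma abs_NS_right (g t : G3) (i j : Fin 3) :
    |NS (g * t) i j - NS g i j| ≤ Real.sqrt (4 * (rA t * rB t)) / Real.sqrt (G23 g) := by
  have h1 := sq_entry_le (NS (g * t) - NS g) i j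
  have h2 := h1.trans (hs_NS_right g t)
  rw [Matrix.sub_apply] at h2
  rw [← Real.sqrt_div' _ (by linarith [G23_ge g] : (0 : ℝ) ≤ G23 g)]
  exact Real.abs_le_sqrt h2

lemma q1_mul_abs_le (g t : G3) (i j : Fin 3) :
    q1 g * |NS (g * t) i j - NS g i j| ≤ 2 * Real.sqrt (4 * (rA t * rB t)) / dn g := by
  have hG : 0 < G23 g := by linarith [G23_ge g]
  have hs' : 0 < Real.sqrt (G23 g) := Real.sqrt_pos.2 hG
  have hd := dn_pos g
  have hlog : Real.log (G23 g) ≤ 2 * Real.sqrt (G23 g) := by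
    have h1 : Real.log (G23 g) = 2 * Real.log (Real.sqrt (G23 g)) := by
      rw [Real.log_sqrt hG.le]; ring
    have h2 := Real.log_le_sub_one_of_pos hs'
    rw [h1]; linarith
  calc q1 g * |NS (g * t) i j - NS g i j|
      ≤ q1 g * (Real.sqrt (4 * (rA t * rB t)) / Real.sqrt (G23 g)) :=
        mul_le_mul_of_nonneg_left (abs_NS_right g t i j) (q1_nonneg g)
    _ = Real.log (G23 g) * (Real.sqrt (4 * (rA t * rB t)) / Real.sqrt (G23 g)) / dn g := by
        rw [q1, dn]; ring
    _ ≤ (2 * Real.sqrt (G23 g)) * (Real.sqrt (4 * (rA t * rB t)) / Real.sqrt (G23 g)) / dn g := by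
        refine div_le_div_of_nonneg_right ?_ hd.le
        exact mul_le_mul_of_nonneg_right hlog (by positivity)
    _ = _ := by field_simp

theorem q1_NS_tendsto (t : G3) (i j : Fin 3) :
    Tendsto (fun g => q1 g * |NS (g * t) i j - NS g i j|) cofinite (𝓝 0) := by
  refine squeeze_zero (fun g => mul_nonneg (q1_nonneg g) (abs_nonneg _))
    (fun g => q1_mul_abs_le g t i j) ?_
  exact (tendsto_const_nhds (x := 2 * Real.sqrt (4 * (rA t * rB t)))).div_atTop tendsto_dn

end Vale.Agent.P092.L.H732
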