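import Mathlib
import Vale.Agent.P092.L.H132.Right
import Vale.Agent.P092.L.H732.Q

/-!
P092 (helper732), block Q of helper553's plan: exact properties of `NS`, Lipschitz dependence under
left translations and the transvection bound.
-/

namespace Vale.Agent.P092.L.H732

open Vale.Agent.P092.L.H553
open Vale.Agent.P092.H553 (hs)
variable {G3 : Type} [Group G3] [Emb G3]

open Vale.Agent.P092.L.H553 Vale.Agent.P092.L.H132 Matrix Filter Topology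

lemma NS_apply (g : G3) (i j : Fin 3) :
    NS g i j = (rB g)⁻¹ * ∑ k, rm g⁻¹ k i * rm g⁻¹ k j := by
  simp only [NS, Matrix.smul_apply, smul_eq_mul, Matrix.mul_apply, Matrix.transpose_apply]

lemma NS_symm (g : G3) (i j : Fin 3) : NS g i j = NS g j i := by
  rw [NS_apply, NS_apply]
  congr 1
  exact Finset.sum_congr rfl fun k _ => mul_comm _ _

lemma NS_diag (g : G3) (i : Fin 3) : NS g i i = (rB g)⁻¹ * ∑ k, rm g⁻¹ k i ^ 2 := by
  rw [NS_apply]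
  congr 1
  exact Finset.sum_congr rfl fun k _ => by ring

lemma NS_diag_nonneg (g : G3) (i : Fin 3) : 0 ≤ NS g i i := by
  rw [NS_diag]
  exact mul_nonneg (inv_nonneg.2 (rB_pos g).le) (Finset.sum_nonneg fun _ _ => sq_nonneg _)

lemma NS_trace (g : G3) : ∑ i, NS g i i = 1 := by
  have hB := rB_pos g
  have h : ∑ i, NS g i i = (rB g)⁻¹ * rB g := by
    rw [show rB g = ∑ i, ∑ k, rm g⁻¹ k i ^ 2 by rw [Finset.sum_comm]; rfl, Finset.mul_sum]
    refine Finset.sum_congr rfl fun i _ => ?_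
    rw [NS_diag]
    rw [show rB g = ∑ i, ∑ k, rm g⁻¹ k i ^ 2 by rw [Finset.sum_comm]; rfl]
  rw [h, inv_mul_cancel₀ hB.ne']

lemma NS_diag_le_one (g : G3) (i : Fin 3) : NS g i i ≤ 1 := by
  rw [← NS_trace g]
  exact Finset.single_le_sum (f := fun i => NS g i i) (fun j _ => NS_diag_nonneg g j)
    (Finset.mem_univ i)

lemma abs_NS_le_one (g : G3) (i j : Fin 3) : |NS g i j| ≤ 1 := by
  have h := (sq_entry_le (NS g) i j).trans (hs_NS_le g)
  exact abs_le_one_iff_mul_self_le_one.2 (by nlinarith)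

/-- The trace of the twisted form. -/
noncomputable def tw (s : G3) (N : M3) : ℝ := ((rm s⁻¹)ᵀ * N * rm s⁻¹).trace

lemma tw_NS (s g : G3) : tw s (NS g) = rB (s * g) / rB g := by
  have h1 := NS_mul s g
  have hB := rB_pos g
  have hB' := rB_pos (s * g)
  have h2 : (NS (s * g)).trace = 1 := NS_trace (s * g)
  rw [h1, Matrix.trace_smul, smul_eq_mul] at h2
  rw [tw, eq_div_iff hB.ne']
  have h3 : rB (s * g) * (rB g / rB (s * g) * ((rm s⁻¹)ᵀ * NS g * rm s⁻¹).trace)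
      = rB (s * g) * 1 := by rw [h2]
  rw [← mul_assoc, mul_div_cancel₀ _ hB'.ne'] at h3
  linarith

/-- Exact left equivariance of `N*`. -/
theorem NS_equivariant (s g : G3) :
    NS (s * g) = (tw s (NS g))⁻¹ • ((rm s⁻¹)ᵀ * NS g * rm s⁻¹) := by
  rw [tw_NS, inv_div]
  exact NS_mul s g

lemma tw_NS_ge (s g : G3) : (rA s)⁻¹ ≤ tw s (NS g) := by
  have hB := rB_pos g
  have hA := rA_pos s
  rw [tw_NS, inv_eq_one_div, div_le_div_iff₀ hA hB, one_mul]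
  have := rA_mul_le (s * g)⁻¹ s
  rwa [show (s * g)⁻¹ * s = g⁻¹ by group, rA_inv, rA_inv] at this

lemma tw_sub (s : G3) (M N : M3) : tw s M - tw s N = tw s (M - N) := by
  rw [tw, tw, tw, ← Matrix.trace_sub]
  congr 1
  rw [Matrix.mul_sub, Matrix.sub_mul]

lemma tw_sq_le (s : G3) (N : M3) : tw s N ^ 2 ≤ rB s ^ 2 * hs N := by
  have h1 : tw s N = ∑ i, ∑ j, N i j * ((rm s⁻¹) * (rm s⁻¹)ᵀ) i j := by
    simp only [tw, Matrix.trace, Matrix.diag_apply, Matrix.mul_apply, Matrix.transpose_apply,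
      Fin.sum_univ_three]
    ring
  have h2 : (∑ i, ∑ j, N i j * ((rm s⁻¹) * (rm s⁻¹)ᵀ) i j) ^ 2 ≤
      hs N * hs ((rm s⁻¹) * (rm s⁻¹)ᵀ) := by
    have e1 : ∑ i, ∑ j, N i j * ((rm s⁻¹) * (rm s⁻¹)ᵀ) i j
        = ∑ x : Fin 3 × Fin 3, N x.1 x.2 * ((rm s⁻¹) * (rm s⁻¹)ᵀ) x.1 x.2 := by
      rw [Fintype.sum_prod_type]
    have e2 : ∀ m : M3, hs m = ∑ x : Fin 3 × Fin 3, m x.1 x.2 ^ 2 := by
      intro m; rw [Fintype.sum_prod_type]; rfl
    rw [e1, e2, e2]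
    exact Finset.sum_mul_sq_le_sq_mul_sq _ _ _
  have h3 : hs ((rm s⁻¹) * (rm s⁻¹)ᵀ) ≤ rB s ^ 2 := by
    have := hs_mul_le (rm s⁻¹) (rm s⁻¹)ᵀ
    rw [hs_transpose] at this
    have e : hs (rm s⁻¹) = rB s := rfl
    rw [e] at this
    rw [sq]; exact this
  rw [h1]
  calc _ ≤ hs N * hs ((rm s⁻¹) * (rm s⁻¹)ᵀ) := h2
    _ ≤ hs N * rB s ^ 2 := mul_le_mul_of_nonneg_left h3 (hs_nonneg _)
    _ = _ := mul_comm _ _

lemma hs_conj_le (s : G3) (N : M3) : hs ((rm s⁻¹)ᵀ * N * rm s⁻¹) ≤ rB s ^ 2 * hs N := by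
  have h1 := hs_mul_le ((rm s⁻¹)ᵀ * N) (rm s⁻¹)
  have h2 := hs_mul_le (rm s⁻¹)ᵀ N
  rw [hs_transpose] at h2
  have e : hs (rm s⁻¹) = rB s := rfl
  rw [e] at h1 h2
  have hB := rB_pos s
  calc _ ≤ hs ((rm s⁻¹)ᵀ * N) * rB s := h1
    _ ≤ (rB s * hs N) * rB s := mul_le_mul_of_nonneg_right h2 hB.le
    _ = _ := by ring

/-- Left translations act in a Lipschitz way on `N*`. -/
theorem hs_NS_left (s g g' : G3) :
    hs (NS (s * g) - NS (s * g')) ≤ 4 * (rA s * rB s) ^ 2 * hs (NS g - NS g') := by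
  set M := (rm s⁻¹)ᵀ * NS g * rm s⁻¹ with hM
  set a := tw s (NS g) with ha
  set a' := tw s (NS g') with ha'
  have hA := rA_pos s
  have ha1 : (rA s)⁻¹ ≤ a := tw_NS_ge s g
  have ha2 : (rA s)⁻¹ ≤ a' := tw_NS_ge s g'
  have hinv : 0 < (rA s)⁻¹ := inv_pos.2 hA
  have apos : 0 < a := lt_of_lt_of_le hinv ha1
  have apos' : 0 < a' := lt_of_lt_of_le hinv ha2
  have e1 : NS (s * g) = a⁻¹ • M := NS_equivariant s g
  have e2 : NS (s * g') = a'⁻¹ • ((rm s⁻¹)ᵀ * NS g' * rm s⁻¹) := NS_equivariant s g'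
  have e3 : NS (s * g) - NS (s * g') =
      a⁻¹ • ((rm s⁻¹)ᵀ * (NS g - NS g') * rm s⁻¹) - (a⁻¹ * (a - a')) • NS (s * g') := by
    have e4 : (rm s⁻¹)ᵀ * (NS g - NS g') * rm s⁻¹ = M - a' • NS (s * g') := by
      rw [e2, smul_smul, mul_inv_cancel₀ apos'.ne', one_smul, Matrix.mul_sub, Matrix.sub_mul]
    rw [e4, e1, smul_sub, smul_smul, sub_sub, ← add_smul]
    congr 1
    have : a⁻¹ * a' + a⁻¹ * (a - a') = 1 := by field_simp; ring
    rw [this, one_smul]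
  rw [e3]
  have h1 := hs_sub_le (a⁻¹ • ((rm s⁻¹)ᵀ * (NS g - NS g') * rm s⁻¹))
    ((a⁻¹ * (a - a')) • NS (s * g'))
  rw [hs_smul, hs_smul] at h1
  have h2 := hs_conj_le s (NS g - NS g')
  have h3 := tw_sq_le s (NS g - NS g')
  rw [← tw_sub, ← ha, ← ha'] at h3
  have h4 := hs_NS_le (s * g')
  have h5 : a⁻¹ ^ 2 ≤ rA s ^ 2 := by
    refine pow_le_pow_left₀ (inv_pos.2 apos).le ?_ 2
    exact inv_le_of_inv_le₀ hA ha1
  have hD := hs_nonneg (NS g - NS g')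
  have h6 : a⁻¹ ^ 2 * hs ((rm s⁻¹)ᵀ * (NS g - NS g') * rm s⁻¹) ≤
      rA s ^ 2 * (rB s ^ 2 * hs (NS g - NS g')) :=
    mul_le_mul h5 h2 (hs_nonneg _) (sq_nonneg _)
  have h7 : (a⁻¹ * (a - a')) ^ 2 * hs (NS (s * g')) ≤
      rA s ^ 2 * (rB s ^ 2 * hs (NS g - NS g')) := by
    have h8 : (a⁻¹ * (a - a')) ^ 2 ≤ rA s ^ 2 * (rB s ^ 2 * hs (NS g - NS g')) := by
      rw [mul_pow]
      exact mul_le_mul h5 h3 (sq_nonneg _) (sq_nonneg _)
    calc _ ≤ (a⁻¹ * (a - a')) ^ 2 * 1 := mul_le_mul_of_nonneg_left h4 (sq_nonneg _)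
      _ ≤ _ := by rw [mul_one]; exact h8
  calc _ ≤ 2 * (rA s ^ 2 * (rB s ^ 2 * hs (NS g - NS g'))) +
        2 * (rA s ^ 2 * (rB s ^ 2 * hs (NS g - NS g'))) := by linarith
    _ = _ := by ring

/-- The converse Lipschitz bound. -/
theorem hs_NS_left' (s g g' : G3) :
    hs (NS g - NS g') ≤ 4 * (rA s * rB s) ^ 2 * hs (NS (s * g) - NS (s * g')) := by
  have h := hs_NS_left s⁻¹ (s * g) (s * g')
  rwa [inv_mul_cancel_left, inv_mul_cancel_left, rA_inv, rB_inv, mul_comm (rB s)] at h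

end Vale.Agent.P092.L.H732
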